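import Vale.Agent.P235.ST.H317.Defs

/-! P235, (ST) O(1), helper751: the lined world of a word.  Columns `i = 0 .. N`, heights
`j = 0 .. T`; the points `(i, j)` and `(i + 1, j)` are identified for `j ∈ H i`. -/

set_option linter.all false
set_option autoImplicit false

namespace Vale.Agent.P235.STO.H751

open SimpleGraph

open Classical in
/-- first column of the point of column `i` at height `j` -/
noncomputable def rep (H : ℕ → Set ℕ) : ℕ → ℕ → ℕ
  | 0, _ => 0
  | i + 1, j => if j ∈ H i then rep H i j else i + 1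

variable {H : ℕ → Set ℕ} {N T : ℕ}

theorem rep_zero (j : ℕ) : rep H 0 j = 0 := rfl

theorem rep_succ_of_mem {i j : ℕ} (h : j ∈ H i) : rep H (i + 1) j = rep H i j := by
  rw [rep, if_pos h]

theorem rep_succ_of_not_mem {i j : ℕ} (h : j ∉ H i) : rep H (i + 1) j = i + 1 := by
  rw [rep, if_neg h]

theorem rep_le (i j : ℕ) : rep H i j ≤ i := by
  induction i with
  | zero => exact le_rfl
  | succ i ih =>
    by_cases h : j ∈ H i
    · rw [rep_succ_of_mem h]; omega
    · rw [rep_succ_of_not_mem h]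

theorem rep_mid {i k j : ℕ} (h1 : rep H i j ≤ k) (h2 : k ≤ i) : rep H k j = rep H i j := by
  induction i with
  | zero =>
    obtain rfl : k = 0 := by omega
    rfl
  | succ i ih =>
    rcases Nat.eq_or_lt_of_le h2 with rfl | h3
    · rfl
    · by_cases h : j ∈ H i
      · rw [rep_succ_of_mem h] at h1 ⊢
        exact ih h1 (by omega)
      · rw [rep_succ_of_not_mem h] at h1
        omega

theorem rep_rep (i j : ℕ) : rep H (rep H i j) j = rep H i j := rep_mid le_rfl (rep_le i j)

theorem rep_zero_of {j : ℕ} : ∀ i : ℕ, (∀ k < i, j ∈ H k) → rep H i j = 0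
  | 0, _ => rfl
  | i + 1, h => by
    rw [rep_succ_of_mem (h i (by omega))]
    exact rep_zero_of i fun k hk => h k (by omega)

/-- the points of the world -/
def Pt (H : ℕ → Set ℕ) (N T : ℕ) : Type :=
  {p : Fin (N + 1) × Fin (T + 1) // rep H p.1 p.2 = (p.1 : ℕ)}

noncomputable instance : Fintype (Pt H N T) := by
  unfold Pt
  classical
  infer_instance

/-- column and height -/
def col (p : Pt H N T) : ℕ := (p.1.1 : ℕ)
def ht (p : Pt H N T) : ℕ := (p.1.2 : ℕ)

theorem col_le (p : Pt H N T) : col p ≤ N := Nat.lt_succ_iff.1 p.1.1.2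
theorem ht_le (p : Pt H N T) : ht p ≤ T := Nat.lt_succ_iff.1 p.1.2.2
theorem rep_col (p : Pt H N T) : rep H (col p) (ht p) = col p := p.2

theorem Pt.ext' {p q : Pt H N T} (h1 : col p = col q) (h2 : ht p = ht q) : p = q := by
  apply Subtype.ext
  apply Prod.ext
  · exact Fin.ext h1
  · exact Fin.ext h2

/-- the point of column `i` at height `j` -/
noncomputable def pt (H : ℕ → Set ℕ) {N T : ℕ} (i j : ℕ) (hi : i ≤ N) (hj : j ≤ T) : Pt H N T :=
  ⟨(⟨rep H i j, by have := rep_le (H := H) i j; omega⟩, ⟨j, by omega⟩), rep_rep i j⟩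

theorem col_pt {i j : ℕ} (hi : i ≤ N) (hj : j ≤ T) : col (pt H i j hi hj) = rep H i j := rfl
theorem ht_pt {i j : ℕ} (hi : i ≤ N) (hj : j ≤ T) : ht (pt H i j hi hj) = j := rfl

/-- the graph -/
def Gr (H : ℕ → Set ℕ) (N T : ℕ) : SimpleGraph (Pt H N T) where
  Adj p q := ∃ i ≤ N, rep H i (ht p) = col p ∧ rep H i (ht q) = col q ∧
    (ht p + 1 = ht q ∨ ht q + 1 = ht p)
  symm := ⟨fun p q ⟨i, h1, h2, h3, h4⟩ => ⟨i, h1, h3, h2, h4.symm⟩⟩
  loopless := ⟨fun p ⟨i, h1, h2, h3, h4⟩ => by omega⟩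

theorem adj_iff {p q : Pt H N T} : (Gr H N T).Adj p q ↔ ∃ i ≤ N, rep H i (ht p) = col p ∧
    rep H i (ht q) = col q ∧ (ht p + 1 = ht q ∨ ht q + 1 = ht p) := Iff.rfl

/-- the line number `k` -/
def Ln (H : ℕ → Set ℕ) (N T : ℕ) (k : ℕ) : Set (Pt H N T) := {z | rep H k (ht z) = col z}

theorem line_walk {k : ℕ} (hk : k ≤ N) : ∀ (n : ℕ) (a b : Pt H N T), a ∈ Ln H N T k →
    b ∈ Ln H N T k → ht b = ht a + n →
    ∃ q : (Gr H N T).Walk a b, q.length = n ∧ ∀ z ∈ q.support, z ∈ Ln H N T k
  | 0, a, b, ha, hb, h => by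
    have h1 : ht a = ht b := by omega
    have h2 : col a = col b := by
      rw [← show rep H k (ht a) = col a from ha, ← show rep H k (ht b) = col b from hb, h1]
    obtain rfl : a = b := Pt.ext' h2 h1
    refine ⟨Walk.nil, rfl, fun z hz => ?_⟩
    rw [Walk.support_nil, List.mem_singleton] at hz
    rw [hz]
    exact ha
  | n + 1, a, b, ha, hb, h => by
    have hb' := ht_le b
    have hc : pt H k (ht a + 1) hk (by omega) ∈ Ln H N T k := rfl
    obtain ⟨q, hq1, hq2⟩ := line_walk hk n (pt H k (ht a + 1) hk (by omega)) b hc hb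
      (by rw [ht_pt]; omega)
    have hadj : (Gr H N T).Adj a (pt H k (ht a + 1) hk (by omega)) :=
      ⟨k, hk, ha, rfl, Or.inl rfl⟩
    refine ⟨Walk.cons hadj q, by rw [Walk.length_cons, hq1], fun z hz => ?_⟩
    rw [Walk.support_cons, List.mem_cons] at hz
    rcases hz with rfl | hz
    · exact ha
    · exact hq2 z hz

theorem line_reach {k : ℕ} (hk : k ≤ N) {a b : Pt H N T} (ha : a ∈ Ln H N T k)
    (hb : b ∈ Ln H N T k) : (Gr H N T).Reachable a b := by
  rcases le_total (ht a) (ht b) with h | h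
  · obtain ⟨q, -, -⟩ := line_walk hk (ht b - ht a) a b ha hb (by omega)
    exact ⟨q⟩
  · obtain ⟨q, -, -⟩ := line_walk hk (ht a - ht b) b a hb ha (by omega)
    exact ⟨q.reverse⟩

theorem line_dist {k : ℕ} (hk : k ≤ N) {a b : Pt H N T} (ha : a ∈ Ln H N T k)
    (hb : b ∈ Ln H N T k) : ((Gr H N T).dist a b : ℝ) ≤ |(ht a : ℝ) - ht b| := by
  rcases le_total (ht a) (ht b) with h | h
  · obtain ⟨q, h1, -⟩ := line_walk hk (ht b - ht a) a b ha hb (by omega)
    have h2 := dist_le q
    rw [h1] at h2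
    have h3 : ((Gr H N T).dist a b : ℝ) ≤ ((ht b - ht a : ℕ) : ℝ) := by exact_mod_cast h2
    rw [Nat.cast_sub h] at h3
    rw [abs_sub_comm]
    exact h3.trans (le_abs_self _)
  · obtain ⟨q, h1, -⟩ := line_walk hk (ht a - ht b) b a hb ha (by omega)
    have h2 := dist_le q
    rw [h1, dist_comm] at h2
    have h3 : ((Gr H N T).dist a b : ℝ) ≤ ((ht a - ht b : ℕ) : ℝ) := by exact_mod_cast h2
    rw [Nat.cast_sub h] at h3
    exact h3.trans (le_abs_self _)

theorem mem_Ln_col (p : Pt H N T) : p ∈ Ln H N T (col p) := rep_col p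

theorem sep_aux {k : ℕ} {a b : Pt H N T} (q : (Gr H N T).Walk a b) :
    col a ≤ k → k ≤ col b → ∃ z ∈ q.support, z ∈ Ln H N T k := by
  induction q with
  | nil =>
    rename_i u
    intro h1 h2
    refine ⟨u, by simp, ?_⟩
    have h3 : col u = k := le_antisymm h1 h2
    rw [← h3]
    exact mem_Ln_col u
  | cons h p ih =>
    rename_i u v w
    intro h1 h2
    by_cases hu : u ∈ Ln H N T k
    · exact ⟨u, by simp, hu⟩
    · obtain ⟨i, hi, e1, e2, -⟩ := id h
      have h3 : col u ≠ k := fun e => hu (by rw [← e]; exact mem_Ln_col u)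
      have h4 : i < k := by
        by_contra hlt
        refine hu ?_
        show rep H k (ht u) = col u
        rw [← e1]
        exact rep_mid (by rw [e1]; exact h1) (not_lt.1 hlt)
      have h5 : col v ≤ k := by
        rw [← e2]
        exact (rep_le i _).trans h4.le
      obtain ⟨z, hz, hz'⟩ := ih h5 h2
      exact ⟨z, by rw [Walk.support_cons]; exact List.mem_cons_of_mem _ hz, hz'⟩

theorem Gr_conn {j₀ : ℕ} (hj : j₀ ≤ T) (hH : ∀ k < N, j₀ ∈ H k) : (Gr H N T).Connected := by
  have h0 : ∀ p : Pt H N T, (Gr H N T).Reachable p (pt H 0 j₀ (Nat.zero_le _) hj) := by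
    intro p
    refine line_reach (col_le p) (mem_Ln_col p) ?_
    show rep H (col p) j₀ = rep H 0 j₀
    rw [rep_zero_of _ fun k hk => hH k (by have := col_le p; omega), rep_zero]
  have : Nonempty (Pt H N T) := ⟨pt H 0 j₀ (Nat.zero_le _) hj⟩
  exact ⟨fun p q => (h0 p).trans (h0 q).symm⟩

/-- **The lined world of a word.** -/
noncomputable def world {j₀ : ℕ} (hj : j₀ ≤ T) (hH : ∀ k < N, j₀ ∈ H k) : LWorld (Pt H N T) where
  G := Gr H N T
  u p := (ht p : ℤ)
  N := Set.univ
  idx := col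
  L p := Ln H N T (col p)
  conn := Gr_conn hj hH
  unit := by
    rintro p q ⟨i, hi, h1, h2, h3⟩
    rcases h3 with h3 | h3
    · rw [← h3]; push_cast; rw [abs_sub_comm]; simp
    · rw [← h3]; push_cast; simp
  mem_L p _ := mem_Ln_col p
  L_sub p _ z hz := by
    refine ⟨trivial, ?_⟩
    rw [← show rep H (col p) (ht z) = col z from hz]
    exact rep_le _ _
  L_path p _ a ha b hb hab := by
    have h1 : ht a ≤ ht b := by exact_mod_cast hab
    obtain ⟨q, h2, h3⟩ := line_walk (col_le p) (ht b - ht a) a b ha hb (by omega)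
    refine ⟨q, ?_, h3⟩
    rw [h2]
    push_cast [Nat.cast_sub h1]
    ring
  L_level p _ x _ := ⟨pt H (col p) (ht x) (col_le p) (ht_le x), rfl, rfl⟩
  sep p _ a _ b _ h1 h2 q := sep_aux q h1 h2
  hop a b q hq hin := by
    have hsup : ∀ z ∈ q.support, z = a ∨ z = b := by
      intro z hz
      by_contra hc
      push Not at hc
      exact hin z hz hc.1 hc.2 trivial
    refine ⟨b, q.end_mem_support, ?_⟩
    cases q with
    | nil => simp
    | cons h p =>
      rename_i v
      rw [Walk.cons_isPath_iff] at hq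
      have hv : v = b := by
        rcases hsup v (by simp) with h1 | h1
        · exact absurd h1 (by rintro rfl; exact hq.2 p.start_mem_support)
        · exact h1
      subst hv
      have hp : p = Walk.nil := Walk.isPath_iff_eq_nil.1 hq.1
      subst hp
      obtain ⟨i, hi, e1, e2, e3⟩ := id h
      have e4 : |(ht v : ℤ) - ht a| = 1 := by
        rcases e3 with e3 | e3
        · rw [← e3]; push_cast; simp
        · rw [← e3]; push_cast; rw [abs_sub_comm]; simp
      rw [e4]
      simp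

end Vale.Agent.P235.STO.H751
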